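import Vale.Agent.P207.Q.ConstSym
import Vale.Agent.P207.Q.H545.Bianchi

/-!
# P207, SPH, row POL: `(∇_v R)(x, v) v = 0` for all `v, x` implies `∇R = 0`
-/

open scoped Manifold ContDiff ENNReal Topology
open Bundle MeasureTheory Set Filter

set_option maxSynthPendingDepth 3

noncomputable section

namespace Vale.Agent.P207.H128.SPH

open Vale.Agent.P255 Vale.Agent.P207 Vale.Agent.P207.D1 Vale.Agent.P207.Q.Brk
open Vale.Agent.P207.Q.H545 Vale.Agent.P207.Q.CS

/-! ### the algebra -/

/-- five-linear forms with the symmetries of `∇R` which vanish on `(v; x, v, v, x')` -/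
theorem form5_eq_zero {V : Type*} [AddCommGroup V] {T : V → V → V → V → V → ℝ}
    (add0 : ∀ w w' x y z t, T (w + w') x y z t = T w x y z t + T w' x y z t)
    (add1 : ∀ w x x' y z t, T w (x + x') y z t = T w x y z t + T w x' y z t)
    (add2 : ∀ w x y y' z t, T w x (y + y') z t = T w x y z t + T w x y' z t)
    (add3 : ∀ w x y z z' t, T w x y (z + z') t = T w x y z t + T w x y z' t)
    (add4 : ∀ w x y z t t', T w x y z (t + t') = T w x y z t + T w x y z t')
    (anti : ∀ w x y z t, T w x y z t = - T w y x z t)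
    (pair : ∀ w x y z t, T w x y z t = T w z t x y)
    (bian : ∀ w x y z t, T w x y z t + T w y z x t + T w z x y t = 0)
    (bian2 : ∀ w x y z t, T w x y z t + T x y w z t + T y w x z t = 0)
    (hyp : ∀ v x t, T v x v v t = 0) (w x y z t : V) : T w x y z t = 0 := by
  have skew : ∀ w x y z t, T w x y z t = - T w x y t z := by
    intro w x y z t
    rw [pair w x y z t, anti w z t x y, pair w t z x y]
  have self : ∀ w x z t, T w x x z t = 0 := by
    intro w x z t
    have := anti w x x z t
    linarith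
  -- polarization in `v`
  have pol : ∀ v w x t, T w x v v t + T v x w v t + T v x v w t = 0 := by
    intro v w x t
    have e1 := hyp (v + w) x t
    have e2 := hyp (v + w + w) x t
    have a1 := hyp v x t
    have a2 := hyp w x t
    simp only [add0, add2, add3, a1, a2] at e1 e2
    linarith
  have A0 : ∀ w x v, T w x v v x = 0 := by
    intro w x v
    have e1 := pol v w x x
    have e2 : T v x v w x = T v x w v x := by
      rw [pair v x v w x, anti v w x x v, skew v x w x v, neg_neg]
    have e3 := bian2 v x w v x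
    have e4 : T w v x v x = - T w x v v x := anti w v x v x
    -- hypothesis polarised at `x` in the direction `v`
    have e5 := pol x v v w
    have e6 : T x v v x w = 0 := self x v x w
    have e7 : T v v x x w = T v x w v x := by rw [pair v v x x w]
    have e8 : T x v x v w = - T x w v v x := by
      rw [pair x v x v w, anti x v w v x]
    linarith
  exact form_eq_zero (D := fun x y z t => T w x y z t) (fun _ _ _ _ _ => add1 _ _ _ _ _ _)
    (fun _ _ _ _ _ => add2 _ _ _ _ _ _) (fun _ _ _ _ _ => add3 _ _ _ _ _ _)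
    (fun _ _ _ _ _ => add4 _ _ _ _ _ _) (anti w) (pair w) (bian w) (fun x y => A0 w x y)
    x y z t

/-! ### in coordinates -/

section Coord

variable {E : Type} [NormedAddCommGroup E] [NormedSpace ℝ E] [FiniteDimensional ℝ E]
variable {G : E → E →L[ℝ] E →L[ℝ] ℝ} {U : Set E}

/-- an identity between curvature components passes to the covariant derivative -/
theorem nabR_eq_hor (h : IsMetricOn G U) {u : E} (hu : u ∈ U) (w x y z t : E) :
    G u (nabR G u w x y z) t =
      fderiv ℝ (RR G (1 : Fin 5) 2 3 4) (u, ![w, x, y, z, t]) (hor G 0 (u, ![w, x, y, z, t])) := by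
  rw [fderiv_RR_hor h (p := (u, ![w, x, y, z, t])) hu]
  rfl

theorem nabR_perm (h : IsMetricOn G U) {u : E} (hu : u ∈ U) (w : E) (f : Fin 5 → E) (hf : f 0 = w)
    (i j k l : Fin 5) :
    G u (nabR G u w (f i) (f j) (f k)) (f l) =
      fderiv ℝ (RR G i j k l) (u, f) (hor G 0 (u, f)) := by
  rw [fderiv_RR_hor h (p := (u, f)) hu, ← hf]

theorem nabR_anti (h : IsMetricOn G U) {u : E} (hu : u ∈ U) (w x y z t : E) :
    G u (nabR G u w x y z) t = - G u (nabR G u w y x z) t := by
  have e1 := nabR_perm h hu w ![w, x, y, z, t] rfl 1 2 3 4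
  have e2 := nabR_perm h hu w ![w, x, y, z, t] rfl 2 1 3 4
  have e3 : RR G (1 : Fin 5) 2 3 4 =ᶠ[𝓝 (u, ![w, x, y, z, t])] fun p => - RR G 2 1 3 4 p := by
    have : ∀ᶠ p : E × (Fin 5 → E) in 𝓝 (u, ![w, x, y, z, t]), p.1 ∈ U :=
      continuous_fst.continuousAt.eventually (h.mem_nhds hu)
    filter_upwards [this] with p hp
    rw [RR_apply, RR_apply, curvT_anti h hp]
    simp
  have e4 : fderiv ℝ (fun p => - RR G (2 : Fin 5) 1 3 4 p) (u, ![w, x, y, z, t]) =
      - fderiv ℝ (RR G (2 : Fin 5) 1 3 4) (u, ![w, x, y, z, t]) := fderiv_fun_neg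
  rw [e3.fderiv_eq, e4, neg_apply] at e1
  rw [← e2] at e1
  exact e1

theorem nabR_pair (h : IsMetricOn G U) {u : E} (hu : u ∈ U) (w x y z t : E) :
    G u (nabR G u w x y z) t = G u (nabR G u w z t x) y := by
  have e1 := nabR_perm h hu w ![w, x, y, z, t] rfl 1 2 3 4
  have e2 := nabR_perm h hu w ![w, x, y, z, t] rfl 3 4 1 2
  have e3 : RR G (1 : Fin 5) 2 3 4 =ᶠ[𝓝 (u, ![w, x, y, z, t])] RR G 3 4 1 2 := by
    have : ∀ᶠ p : E × (Fin 5 → E) in 𝓝 (u, ![w, x, y, z, t]), p.1 ∈ U :=
      continuous_fst.continuousAt.eventually (h.mem_nhds hu)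
    filter_upwards [this] with p hp
    rw [RR_apply, RR_apply, curvT_pair_symm h hp]
  rw [e3.fderiv_eq, ← e2] at e1
  exact e1

theorem nabR_bianchi1 (h : IsMetricOn G U) {u : E} (hu : u ∈ U) (w x y z t : E) :
    G u (nabR G u w x y z) t + G u (nabR G u w y z x) t + G u (nabR G u w z x y) t = 0 := by
  have e1 := nabR_perm h hu w ![w, x, y, z, t] rfl 1 2 3 4
  have e2 := nabR_perm h hu w ![w, x, y, z, t] rfl 2 3 1 4
  have e2' := nabR_perm h hu w ![w, x, y, z, t] rfl 3 1 2 4
  have hU : ∀ᶠ p : E × (Fin 5 → E) in 𝓝 (u, ![w, x, y, z, t]), p.1 ∈ U :=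
    continuous_fst.continuousAt.eventually (h.mem_nhds hu)
  have e3 : RR G (1 : Fin 5) 2 3 4 =ᶠ[𝓝 (u, ![w, x, y, z, t])]
      fun p => - RR G 2 3 1 4 p - RR G 3 1 2 4 p := by
    filter_upwards [hU] with p hp
    have := congrArg (fun q => G p.1 q (p.2 4)) (curvT_bianchi h hp (p.2 1) (p.2 2) (p.2 3))
    simp only [map_add, add_apply, map_zero, zero_apply] at this
    rw [RR_apply, RR_apply, RR_apply]
    linarith
  have d : ∀ i j k l : Fin 5, DifferentiableAt ℝ (RR G i j k l) (u, ![w, x, y, z, t]) := by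
    intro i j k l
    have h0 : DifferentiableAt ℝ (curvT G) u := (contDiffAt_curvT h hu).differentiableAt (by simp)
    have hG : DifferentiableAt ℝ G u := h.differentiableAt hu
    have c0 : DifferentiableAt ℝ (fun p : E × (Fin 5 → E) => curvT G p.1) (u, ![w, x, y, z, t]) :=
      DifferentiableAt.comp (g := curvT G) (f := fun p : E × (Fin 5 → E) => p.1)
        (u, ![w, x, y, z, t]) h0 differentiableAt_fst
    have c1 : DifferentiableAt ℝ (fun p : E × (Fin 5 → E) => G p.1) (u, ![w, x, y, z, t]) :=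
      DifferentiableAt.comp (g := G) (f := fun p : E × (Fin 5 → E) => p.1)
        (u, ![w, x, y, z, t]) hG differentiableAt_fst
    have c2 : ∀ c : Fin 5, DifferentiableAt ℝ (fun p : E × (Fin 5 → E) => p.2 c)
        (u, ![w, x, y, z, t]) := fun c => by fun_prop
    exact (c1.clm_apply (((c0.clm_apply (c2 i)).clm_apply (c2 j)).clm_apply (c2 k))).clm_apply
      (c2 l)
  have e4 : fderiv ℝ (fun p => - RR G (2 : Fin 5) 3 1 4 p - RR G 3 1 2 4 p)
      (u, ![w, x, y, z, t]) =
      - fderiv ℝ (RR G (2 : Fin 5) 3 1 4) (u, ![w, x, y, z, t])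
        - fderiv ℝ (RR G (3 : Fin 5) 1 2 4) (u, ![w, x, y, z, t]) := by
    rw [fderiv_fun_sub (d 2 3 1 4).fun_neg (d 3 1 2 4), fderiv_fun_neg]
  rw [e3.fderiv_eq, e4, sub_apply, neg_apply, ← e2, ← e2'] at e1
  simp only [Matrix.cons_val] at e1 ⊢
  linarith

/-- **row POL, in coordinates** -/
theorem nabR_eq_zero (h : IsMetricOn G U) {u : E} (hu : u ∈ U)
    (hyp : ∀ v x, nabR G u v x v v = 0) (w x y z : E) : nabR G u w x y z = 0 := by
  apply h.ext_of hu
  intro t
  rw [map_zero, zero_apply]
  refine form5_eq_zero (T := fun w x y z t => G u (nabR G u w x y z) t) ?_ ?_ ?_ ?_ ?_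
    (nabR_anti h hu) (nabR_pair h hu) (nabR_bianchi1 h hu) ?_ ?_ w x y z t
  · intro w w' x y z t
    simp only [nabR, map_add, map_sub, add_apply, sub_apply]
    ring
  · intro w x x' y z t
    simp only [nabR, map_add, map_sub, add_apply, sub_apply]
    ring
  · intro w x y y' z t
    simp only [nabR, map_add, map_sub, add_apply, sub_apply]
    ring
  · intro w x y z z' t
    simp only [nabR, map_add, map_sub, add_apply, sub_apply]
    ring
  · intro w x y z t t'
    simp only [map_add]
  · intro w x y z t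
    have := congrArg (fun q => G u q t) (nabR_bianchi h hu w x y z)
    simpa only [map_add, add_apply, map_zero, zero_apply] using this
  · intro v x t
    simp only [hyp, map_zero, zero_apply]

end Coord

section Mfd

variable {n : ℕ} {M : Type} [TopologicalSpace M] [ChartedSpace (EV n) M]
  [IsManifold 𝓘(ℝ, EV n) ∞ M]

/-- **row POL**: `(∇_v R)(x, v) v = 0` for all `v, x` implies local symmetry -/
theorem locSymmetric_of_nabR {g : RMetric (EV n) M}
    (hyp : ∀ a : M, ∀ u ∈ (chartAt (EV n) a).target, ∀ v x : EV n,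
      nabR ((mt g).coef a) u v x v v = 0) : LocSymmetric g := by
  apply locSymmetric_of_locSymOn
  intro a u hu w x y z
  have e := nabR_eq_zero ((mt g).isMetricOn a) hu (hyp a u hu) w x y z
  unfold nabR at e
  have e2 : fderiv ℝ (curvT ((mt g).coef a)) u w x y z =
      - (chrisB ((mt g).coef a) u w (curvT ((mt g).coef a) u x y z))
        + curvT ((mt g).coef a) u (chrisB ((mt g).coef a) u w x) y z
        + curvT ((mt g).coef a) u x (chrisB ((mt g).coef a) u w y) z
        + curvT ((mt g).coef a) u x y (chrisB ((mt g).coef a) u w z) := by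
    rw [← sub_eq_zero, ← e]
    abel
  rw [e2]
  abel

end Mfd

end Vale.Agent.P207.H128.SPH
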